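import Vale.Agent.Lib.P084G.III.QfA
import Vale.Agent.Lib.P084G.II.UltraD

/-! The structure `Alg` on the ultrapower. -/

open Filter Topology

namespace P084GII

open P084G

variable {V : Type*} [NormedAddCommGroup V] [NormedSpace ℝ V]
variable {J : V → V →L[ℝ] ℝ} {C : ℝ} {B : V → V → ℝ} {m : V → V → V} {lam : V → ℝ} {κ : ℝ}

/-- compatibility of the data on `V` and on `XU V` -/
structure Ext (J : V → V →L[ℝ] ℝ) (B : V → V → ℝ) (m : V → V → V) (lam : V → ℝ)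
    (JU : XU V → XU V →L[ℝ] ℝ) (BU : XU V → XU V → ℝ) (mU : XU V → XU V → XU V)
    (lamU : XU V → ℝ) : Prop where
  Jl : ∀ x v : ℕ → V, Bd x → Bd v → uq x ≠ 0 →
    Tendsto (fun n => J (x n) (v n)) (UU : Filter ℕ) (𝓝 (JU (uq x) (uq v)))
  Bl : ∀ u v : ℕ → V, Bd u → Bd v →
    Tendsto (fun n => B (u n) (v n)) (UU : Filter ℕ) (𝓝 (BU (uq u) (uq v)))
  ml : ∀ u v : ℕ → V, Bd u → Bd v → mU (uq u) (uq v) = uq (fun n => m (u n) (v n))
  ll : ∀ x : ℕ → V, Bd x → uq x ≠ 0 →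
    Tendsto (fun n => lam (x n)) (UU : Filter ℕ) (𝓝 (lamU (uq x)))

/-- extension of a bounded bilinear form to the ultrapower -/
theorem exists_BU (hB : Psd B C) (hC : 0 ≤ C) : ∃ BU : XU V → XU V → ℝ, Psd BU C ∧
    ∀ u v : ℕ → V, Bd u → Bd v →
      Tendsto (fun n => B (u n) (v n)) (UU : Filter ℕ) (𝓝 (BU (uq u) (uq v))) := by
  sorry

/-- extension of the bounded bilinear map -/
theorem exists_mU (h : Alg J C B m lam) : ∃ mU : XU V → XU V → XU V,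
    (∀ u v : ℕ → V, Bd u → Bd v → mU (uq u) (uq v) = uq (fun n => m (u n) (v n))) ∧
    (∀ u v w, mU (u + v) w = mU u w + mU v w) ∧
    (∀ (c : ℝ) (u w : XU V), mU (c • u) w = c • mU u w) ∧ (∀ u v, mU u v = mU v u) ∧
    ∀ u v, ‖mU u v‖ ≤ C * ‖u‖ * ‖v‖ := by
  sorry

/-- extension of `lam` (value `0` at `0`) -/
theorem exists_lamU (h : Alg J C B m lam) : ∃ lamU : XU V → ℝ,
    (∀ x : ℕ → V, Bd x → uq x ≠ 0 →
      Tendsto (fun n => lam (x n)) (UU : Filter ℕ) (𝓝 (lamU (uq x)))) ∧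
    (∀ c : ℝ, 0 < c → ∀ u, lamU (c • u) = lamU u) ∧ (∀ u, u ≠ 0 → lamU (-u) = -lamU u) ∧
    ∀ u, |lamU u| ≤ C := by
  sorry

/-- **`Alg` on the ultrapower** -/
theorem alg_XU (h : Alg J C B m lam) : ∃ (JU : XU V → XU V →L[ℝ] ℝ) (BU : XU V → XU V → ℝ)
    (mU : XU V → XU V → XU V) (lamU : XU V → ℝ), Alg JU (C + 2) BU mU lamU ∧
      Ext J B m lam JU BU mU lamU := by
  sorry

end P084GII
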