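import Vale.Agent.Lib.P084G.II.SmA

/-!
# P084G, part III: the algebraic theorem of Case C, definitions (notes/P084/ALG.md)

`Alg J C B m lam` : `J` is the (2-uniformly smooth) duality map of `V`, `B` a bounded positive semidefinite symmetric
bilinear form, `m : V × V → V` bounded symmetric bilinear, `lam` a bounded odd `0`-homogeneous function, uniformly
continuous as a function of `J u`, with `J u (m u v) = lam u * B u v`.
`qf x u v = J x (m u v) - lam x * B u v`.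
`SupQ κ` : `qf x u u ≤ κ ‖u‖²`.   `MaxP κ x u` : a maximising pair.
`TopQ κ τ` : almost maximising pairs satisfy `J x u ≤ τ + small`.
-/

open Filter Topology

namespace P084GII

variable {V : Type*} [NormedAddCommGroup V] [NormedSpace ℝ V]

structure Alg (J : V → V →L[ℝ] ℝ) (C : ℝ) (B : V → V → ℝ) (m : V → V → V) (lam : V → ℝ) :
    Prop where
  dual : Dual2 J C
  Badd : ∀ u v w, B (u + v) w = B u w + B v w
  Bsmul : ∀ (c : ℝ) (u w : V), B (c • u) w = c * B u w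
  Bsymm : ∀ u v, B u v = B v u
  Bpos : ∀ u, 0 ≤ B u u
  Bbd : ∀ u v, |B u v| ≤ C * ‖u‖ * ‖v‖
  madd : ∀ u v w, m (u + v) w = m u w + m v w
  msmul : ∀ (c : ℝ) (u w : V), m (c • u) w = c • m u w
  msymm : ∀ u v, m u v = m v u
  mbd : ∀ u v, ‖m u v‖ ≤ C * ‖u‖ * ‖v‖
  lsmul : ∀ c : ℝ, 0 < c → ∀ u, lam (c • u) = lam u
  lneg : ∀ u, u ≠ 0 → lam (-u) = -lam u
  lbd : ∀ u, |lam u| ≤ C
  lunif : ∀ ε : ℝ, 0 < ε → ∃ δ : ℝ, 0 < δ ∧ ∀ u v : V, ‖u‖ = 1 → ‖v‖ = 1 → ‖J u - J v‖ ≤ δ →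
    |lam u - lam v| ≤ ε
  rel : ∀ u v, u ≠ 0 → J u (m u v) = lam u * B u v

/-- the basic family of quadratic forms -/
noncomputable def qf (J : V → V →L[ℝ] ℝ) (B : V → V → ℝ) (m : V → V → V) (lam : V → ℝ)
    (x u v : V) : ℝ := J x (m u v) - lam x * B u v

def SupQ (J : V → V →L[ℝ] ℝ) (B : V → V → ℝ) (m : V → V → V) (lam : V → ℝ) (κ : ℝ) : Prop :=
  ∀ x u, x ≠ 0 → qf J B m lam x u u ≤ κ * ‖u‖ ^ 2

structure MaxP (J : V → V →L[ℝ] ℝ) (B : V → V → ℝ) (m : V → V → V) (lam : V → ℝ) (κ : ℝ)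
    (x u : V) : Prop where
  pos : 0 < κ
  hx : ‖x‖ = 1
  hu : ‖u‖ = 1
  sup : SupQ J B m lam κ
  eq : qf J B m lam x u u = κ

def TopQ (J : V → V →L[ℝ] ℝ) (B : V → V → ℝ) (m : V → V → V) (lam : V → ℝ) (κ τ : ℝ) : Prop :=
  ∀ η : ℝ, 0 < η → ∃ δ : ℝ, 0 < δ ∧ ∀ x u : V, ‖x‖ = 1 → ‖u‖ = 1 →
    κ - δ ≤ qf J B m lam x u u → J x u ≤ τ + η

/-- the form `B` is positive semidefinite, bounded, symmetric bilinear (used in the convexity lemmas) -/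
structure Psd (B : V → V → ℝ) (C : ℝ) : Prop where
  add : ∀ u v w, B (u + v) w = B u w + B v w
  smul : ∀ (c : ℝ) (u w : V), B (c • u) w = c * B u w
  symm : ∀ u v, B u v = B v u
  nonneg : ∀ u, 0 ≤ B u u
  bd : ∀ u v, |B u v| ≤ C * ‖u‖ * ‖v‖

theorem Alg.psd {J : V → V →L[ℝ] ℝ} {C : ℝ} {B : V → V → ℝ} {m : V → V → V} {lam : V → ℝ}
    (h : Alg J C B m lam) : Psd B C := ⟨h.Badd, h.Bsmul, h.Bsymm, h.Bpos, h.Bbd⟩

end P084GII
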