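import Vale.Agent.Lib.P084G.III.AlgU

/-! Transfer of `qf`, `SupQ`, `TopQ`, `MaxP` to the ultrapower. -/

open Filter Topology

namespace P084GII

open P084G

variable {V : Type*} [NormedAddCommGroup V] [NormedSpace ℝ V]
variable {J : V → V →L[ℝ] ℝ} {C : ℝ} {B : V → V → ℝ} {m : V → V → V} {lam : V → ℝ} {κ τ : ℝ}
variable {JU : XU V → XU V →L[ℝ] ℝ} {BU : XU V → XU V → ℝ} {mU : XU V → XU V → XU V}
  {lamU : XU V → ℝ}

theorem Ext.qf_lim (h : Alg J C B m lam) (hE : Ext J B m lam JU BU mU lamU)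
    {x u v : ℕ → V} (hx : Bd x) (hu : Bd u) (hv : Bd v) (h0 : uq x ≠ 0) :
    Tendsto (fun n => qf J B m lam (x n) (u n) (v n)) (UU : Filter ℕ)
      (𝓝 (qf JU BU mU lamU (uq x) (uq u) (uq v))) := by
  sorry

theorem Ext.supQ (h : Alg J C B m lam) (hE : Ext J B m lam JU BU mU lamU)
    (hs : SupQ J B m lam κ) : SupQ JU BU mU lamU κ := by
  sorry

theorem Ext.topQ (h : Alg J C B m lam) (hE : Ext J B m lam JU BU mU lamU)
    (ht : TopQ J B m lam κ τ) : TopQ JU BU mU lamU κ τ := by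
  sorry

/-- maximising sequences give maximising pairs -/
theorem Ext.maxP (h : Alg J C B m lam) (hE : Ext J B m lam JU BU mU lamU) (hκ : 0 < κ)
    (hs : SupQ J B m lam κ) {x u : ℕ → V} (hx : ∀ n, ‖x n‖ = 1) (hu : ∀ n, ‖u n‖ = 1)
    (hl : Tendsto (fun n => qf J B m lam (x n) (u n) (u n)) atTop (𝓝 κ)) :
    MaxP JU BU mU lamU κ (uq x) (uq u) := by
  sorry

/-- constant sequences -/
theorem Ext.const (h : Alg J C B m lam) (hE : Ext J B m lam JU BU mU lamU) {x u : V}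
    (hM : MaxP J B m lam κ x u) : MaxP JU BU mU lamU κ (uq fun _ => x) (uq fun _ => u) := by
  sorry

end P084GII
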