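import Vale.Agent.Lib.P084G.III.QfA

/-! notes/P084/ALG.md, step (2). -/

open Filter Topology

namespace P084GII

variable {V : Type*} [NormedAddCommGroup V] [NormedSpace ℝ V]
variable {J : V → V →L[ℝ] ℝ} {C : ℝ} {B : V → V → ℝ} {m : V → V → V} {lam : V → ℝ} {κ : ℝ}

/-- for `B k k = 0`: `(J (k + t v) - J k) (m k s) / t → - qf k v s` (write `rel` at `k + t v`, second argument `s`) -/
theorem D_tendsto (h : Alg J C B m lam) {k : V} (hk : k ≠ 0) (hB : B k k = 0) (v s : V) :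
    Tendsto (fun t : ℝ => (J (k + t • v) (m k s) - J k (m k s)) / t) (𝓝[≠] 0)
      (𝓝 (-qf J B m lam k v s)) := by
  sorry

/-- convexity: if the second derivative of the norm at `k` in the direction `a` vanishes then so do the mixed ones:
`R(h) = ‖k+h‖ - ‖k‖ - J k h` is convex with gradient `J (k+h) - J k`, `0 ≤ R(h) ≤ C ‖h‖²`-type bound. -/
theorem mixed_zero {J : V → V →L[ℝ] ℝ} {C : ℝ} (hJ : Dual2 J C) {k : V} (hk : ‖k‖ = 1) (a v : V)
    (ha : Tendsto (fun t : ℝ => (J (k + t • a) a - J k a) / t) (𝓝[≠] 0) (𝓝 0)) :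
    Tendsto (fun t : ℝ => (J (k + t • v) a - J k a) / t) (𝓝[≠] 0) (𝓝 0) := by
  sorry

/-- (2) -/
theorem MaxP.Bx_pos (h : Alg J C B m lam) {x u : V} (hM : MaxP J B m lam κ x u) : 0 < B x x := by
  sorry

end P084GII
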