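import Vale.Agent.Lib.P084G.III.ExtQ
import Vale.Agent.Lib.P084G.III.Step2

/-! notes/P084/ALG.md, step (3): uniform lower bound for `B` near the face. -/

open Filter Topology

namespace P084GII

open P084G

variable {V : Type*} [NormedAddCommGroup V] [NormedSpace ℝ V]
variable {J : V → V →L[ℝ] ℝ} {C : ℝ} {B : V → V → ℝ} {m : V → V → V} {lam : V → ℝ} {κ : ℝ}

/-- By contradiction: `e n` unit with `J x (e n) → 1` and `B (e n) (e n) → 0`; in `XU V` the class `f` of `e` satisfies
`JU f = JU x` (`DualU.uniq`), so `lamU f = lamU x`, `(f, u)` is a maximising pair and `MaxP.Bx_pos` applies. -/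
theorem MaxP.lower (h : Alg J C B m lam) {x u : V} (hM : MaxP J B m lam κ x u) :
    ∃ δ c : ℝ, 0 < δ ∧ 0 < c ∧ ∀ e : V, ‖e‖ = 1 → 1 - δ ≤ J x e → c ≤ B e e := by
  sorry

end P084GII
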