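import Vale.Agent.Lib.P084G.III.QfA

/-! notes/P084/ALG.md, step (3): selection of `β` (pure convexity). -/

open Filter Topology

namespace P084GII

variable {V : Type*} [NormedAddCommGroup V] [NormedSpace ℝ V]

/-- `(β, b, I)` is admissible: `I` is the relaxed infimum of `‖u + e‖` on `{θ e = β, ‖e‖ → β}` and `b` is a limit of
`B e e` along approximate minimisers -/
def Adm (θ : V →L[ℝ] ℝ) (u : V) (B : V → V → ℝ) (β b I : ℝ) : Prop :=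
  (∀ δ : ℝ, 0 < δ → ∃ e : V, θ e = β ∧ ‖e‖ ≤ β + δ ∧ ‖u + e‖ ≤ I + δ ∧ |B e e - b| ≤ δ) ∧
    ∀ ε : ℝ, 0 < ε → ∃ δ : ℝ, 0 < δ ∧ ∀ e : V, θ e = β → ‖e‖ ≤ β + δ → I ≤ ‖u + e‖ + ε

/-- existence of `b, I` for every `β > 0` (compactness of `[0, C β²]`), uniqueness of `I` -/
theorem Adm.exists {θ : V →L[ℝ] ℝ} (hθ : ∀ v, θ v ≤ ‖v‖) {x : V} (hx : ‖x‖ = 1) (hx1 : θ x = 1)
    (u : V) {B : V → V → ℝ} {C : ℝ} (hB : Psd B C) {β : ℝ} (hβ : 0 < β) :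
    ∃ b I : ℝ, Adm θ u B β b I := by
  sorry

theorem Adm.uniq {θ : V →L[ℝ] ℝ} {u : V} {B : V → V → ℝ} {β b b' I I' : ℝ}
    (h : Adm θ u B β b I) (h' : Adm θ u B β b' I') : I = I' := by
  sorry

/-- convexity: the set of admissible `b` is an interval -/
theorem Adm.between {θ : V →L[ℝ] ℝ} (hθ : ∀ v, θ v ≤ ‖v‖) {u : V} {B : V → V → ℝ} {C : ℝ}
    (hB : Psd B C) {β b₁ b₂ b I : ℝ} (h₁ : Adm θ u B β b₁ I) (h₂ : Adm θ u B β b₂ I)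
    (hb₁ : b₁ ≤ b) (hb₂ : b ≤ b₂) : Adm θ u B β b I := by
  sorry

/-- closedness: limits of admissible triples with `β_n → β > 0` are admissible (rescale `e` by `β / β_n`; the relaxed
infimum is `1`-Lipschitz-like in `β`: `|I(β) - I(β')| ≤ 2 |β - β'|` by rescaling, so limits of `I` are right) -/
theorem Adm.closed {θ : V →L[ℝ] ℝ} (hθ : ∀ v, θ v ≤ ‖v‖) {u : V} {B : V → V → ℝ} {C : ℝ}
    (hB : Psd B C) {β b I : ℕ → ℝ} {β' b' I' : ℝ} (h : ∀ n, Adm θ u B (β n) (b n) (I n))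
    (h0 : ∀ n, 0 < β n) (hβ0 : 0 < β')
    (hβ : Tendsto β atTop (𝓝 β')) (hb : Tendsto b atTop (𝓝 b')) (hI : Tendsto I atTop (𝓝 I')) :
    Adm θ u B β' b' I' := by
  sorry

/-- **selection of `β`**: intermediate value argument in `β` -/
theorem select {θ : V →L[ℝ] ℝ} (hθ : ∀ v, θ v ≤ ‖v‖) {x : V} (hx : ‖x‖ = 1) (hx1 : θ x = 1)
    (u : V) {B : V → V → ℝ} {C : ℝ} (hB : Psd B C) (hBu : 0 < B u u)
    (hlow : ∃ δ c : ℝ, 0 < δ ∧ 0 < c ∧ ∀ e : V, ‖e‖ = 1 → 1 - δ ≤ θ e → c ≤ B e e) :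
    ∃ β I : ℝ, 0 < β ∧ Adm θ u B β (B u u) I := by
  sorry

end P084GII
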