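import Vale.Agent.Lib.P084G.III.Defs

/-! notes/P084/ALG.md, step (3): the penalised minimisation.  Pure convexity; no `Alg`. -/

open Filter Topology

namespace P084GII

variable {V : Type*} [NormedAddCommGroup V] [NormedSpace ℝ V]
variable {J : V → V →L[ℝ] ℝ} {C : ℝ}

/-- the penalised functional -/
noncomputable def Wt (t : ℝ) (u f e : V) : ℝ := ‖e‖ + t * ‖u + e‖ + t * ‖e - f‖ ^ 2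

/-- points below the level of `f` are near `f`: `‖e‖ - β ≤ t(‖f-e‖ - ‖e-f‖²) ≤ t/4`, then (INF) gives
`‖e-f‖² ≤ ‖u+f‖ - ‖u+e‖ ≤ ε²` -/
theorem Wt_near {θ : V →L[ℝ] ℝ} (hθ : ∀ v, θ v ≤ ‖v‖) {u f : V} (hf : θ f = ‖f‖)
    (hinf : ∀ ε : ℝ, 0 < ε → ∃ δ : ℝ, 0 < δ ∧ ∀ e : V, θ e = ‖f‖ → ‖e‖ ≤ ‖f‖ + δ →
      ‖u + f‖ ≤ ‖u + e‖ + ε) {ε : ℝ} (hε : 0 < ε) :
    ∃ t₀ : ℝ, 0 < t₀ ∧ ∀ t : ℝ, 0 < t → t < t₀ → ∀ e : V, θ e = ‖f‖ →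
      Wt t u f e ≤ Wt t u f f → ‖e - f‖ ≤ ε := by
  sorry

/-- `‖z + k‖² ≤ ‖z‖² + 2 ‖z‖ J z k + (6 + (1 + C)² + 2 C) ‖k‖²` -/
theorem sq_taylor (hJ : Dual2 J C) (z k : V) :
    ‖z + k‖ ^ 2 ≤ ‖z‖ ^ 2 + 2 * ‖z‖ * J z k + (6 + (1 + C) ^ 2 + 2 * C) * ‖k‖ ^ 2 := by
  sorry

/-- approximate Euler-Lagrange equation at an approximate minimiser of `Wt` on `{θ e = ‖f‖}` -/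
theorem Wt_EL (hJ : Dual2 J C) {θ : V →L[ℝ] ℝ} (hθ : ∀ v, θ v ≤ ‖v‖) {u f : V} (hf : θ f = ‖f‖)
    (hf0 : f ≠ 0) (huf : 1 ≤ ‖u + f‖)
    (hinf : ∀ ε : ℝ, 0 < ε → ∃ δ : ℝ, 0 < δ ∧ ∀ e : V, θ e = ‖f‖ → ‖e‖ ≤ ‖f‖ + δ →
      ‖u + f‖ ≤ ‖u + e‖ + ε) {ε : ℝ} (hε : 0 < ε) :
    ∃ t₀ : ℝ, 0 < t₀ ∧ ∀ t : ℝ, 0 < t → t < t₀ → ∃ e : V, θ e = ‖f‖ ∧ ‖e - f‖ ≤ ε ∧
      ‖e‖ ≤ ‖f‖ + t ∧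
      ∀ k : V, θ k = 0 →
        |J e k + t * J (u + e) k + 2 * t * ‖e - f‖ * J (e - f) k| ≤ t ^ 2 * ‖k‖ := by
  sorry

end P084GII
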