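import Vale.Agent.Lib.P084G.III.QfA
import Vale.Agent.Lib.P084G.III.Step3A

/-! notes/P084/ALG.md, step (3): conclusion. -/

open Filter Topology

namespace P084GII

variable {V : Type*} [NormedAddCommGroup V] [NormedSpace ℝ V]
variable {J : V → V →L[ℝ] ℝ} {C : ℝ} {B : V → V → ℝ} {m : V → V → V} {lam : V → ℝ} {κ : ℝ}

/-- `f` with `J f = J x` is in the kernel of `qf x`; `J u f = 0`, `‖u + f‖ ≥ 1` -/
theorem MaxP.face (h : Alg J C B m lam) {x u f : V} (hM : MaxP J B m lam κ x u) (hf0 : f ≠ 0)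
    (hf : J f = J x) : (∀ v, qf J B m lam x f v = 0) ∧ J u f = 0 ∧ 1 ≤ ‖u + f‖ := by
  sorry

/-- the key estimate for one `t`: with `e` from `Wt_EL` and `s = u + e`, `xi = m u u - ρ² m e e`, `ρ² = B u u / B e e`.
There is a constant `D` (depending on everything but `t`, `e`) such that
`κ J(s)e / ‖f‖ ≤ D (‖e - f‖ + |B e e - B u u| + t)`. -/
theorem key_est (h : Alg J C B m lam) {x u f : V} (hM : MaxP J B m lam κ x u) (hf0 : f ≠ 0)
    (hf : J f = J x) (hB : B f f = B u u) (hBu : 0 < B u u) :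
    ∃ D r : ℝ, 0 < D ∧ 0 < r ∧ ∀ (t : ℝ) (e : V), 0 < t → t < r → J x e = ‖f‖ → ‖e - f‖ ≤ r →
      ‖e‖ ≤ ‖f‖ + t →
      (∀ k : V, J x k = 0 →
        |J e k + t * J (u + e) k + 2 * t * ‖e - f‖ * J (e - f) k| ≤ t ^ 2 * ‖k‖) →
      J (u + e) e ≤ D * (‖e - f‖ + |B e e - B u u| + t) := by
  sorry

/-- (3): the norm does not increase from `u` to `u + f` -/
theorem MaxP.flat (h : Alg J C B m lam) {x u f : V} (hM : MaxP J B m lam κ x u) (hf0 : f ≠ 0)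
    (hf : J f = J x) (hB : B f f = B u u)
    (hinf : ∀ ε : ℝ, 0 < ε → ∃ δ : ℝ, 0 < δ ∧ ∀ e : V, J x e = ‖f‖ → ‖e‖ ≤ ‖f‖ + δ →
      ‖u + f‖ ≤ ‖u + e‖ + ε) (hBu : 0 < B u u) : ‖u + f‖ = 1 := by
  sorry

end P084GII
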