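import Vale.Agent.Lib.P084G.III.ExtQ

/-! notes/P084/ALG.md: existence of `κ`, `τ` and of the top maximising pair in the ultrapower. -/

open Filter Topology

namespace P084GII

open P084G

variable {V : Type*} [NormedAddCommGroup V] [NormedSpace ℝ V]
variable {J : V → V →L[ℝ] ℝ} {C : ℝ} {B : V → V → ℝ} {m : V → V → V} {lam : V → ℝ} {κ : ℝ}

/-- `κ` = supremum of `qf x u u` over unit `x, u`; `τ` = infimum over `δ` of the supremum of `J x u` over the pairs with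
`qf x u u ≥ κ - δ` -/
theorem exists_top (h : Alg J C B m lam) {x u : V} (hx : x ≠ 0) (hpos : 0 < qf J B m lam x u u) :
    ∃ κ τ : ℝ, 0 < κ ∧ SupQ J B m lam κ ∧ TopQ J B m lam κ τ ∧
      ∀ δ : ℝ, 0 < δ → ∃ x u : V, ‖x‖ = 1 ∧ ‖u‖ = 1 ∧ κ - δ ≤ qf J B m lam x u u ∧
        τ - δ ≤ J x u := by
  sorry

/-- the top pair in the ultrapower -/
theorem exists_top_pair (h : Alg J C B m lam) {JU : XU V → XU V →L[ℝ] ℝ} {BU : XU V → XU V → ℝ}
    {mU : XU V → XU V → XU V} {lamU : XU V → ℝ} (hE : Ext J B m lam JU BU mU lamU) {κ τ : ℝ}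
    (hκ : 0 < κ) (hs : SupQ J B m lam κ)
    (hex : ∀ δ : ℝ, 0 < δ → ∃ x u : V, ‖x‖ = 1 ∧ ‖u‖ = 1 ∧ κ - δ ≤ qf J B m lam x u u ∧
        τ - δ ≤ J x u) :
    ∃ x u : XU V, MaxP JU BU mU lamU κ x u ∧ τ ≤ JU x u := by
  sorry

end P084GII
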