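import Vale.Agent.Lib.P084G.III.Step1
import Vale.Agent.Lib.P084G.III.Step3B
import Vale.Agent.Lib.P084G.III.Select
import Vale.Agent.Lib.P084G.III.Lower
import Vale.Agent.Lib.P084G.III.Top

/-! notes/P084/ALG.md: the theorem. -/

open Filter Topology

namespace P084GII

open P084G

variable {V : Type*} [NormedAddCommGroup V] [NormedSpace ℝ V]
variable {J : V → V →L[ℝ] ℝ} {C : ℝ} {B : V → V → ℝ} {m : V → V → V} {lam : V → ℝ} {κ τ : ℝ}

/-- an admissible triple gives a face element in the ultrapower -/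
theorem Adm.exists_face (h : Alg J C B m lam) {JU : XU V → XU V →L[ℝ] ℝ}
    {BU : XU V → XU V → ℝ} {mU : XU V → XU V → XU V} {lamU : XU V → ℝ}
    (hU : Alg JU (C + 2) BU mU lamU) (hE : Ext J B m lam JU BU mU lamU) {x u : V} (hx : ‖x‖ = 1)
    {β b I : ℝ} (hβ : 0 < β) (hA : Adm (J x) u B β b I) :
    ∃ f : XU V, ‖f‖ = β ∧ JU f = JU (uq fun _ => x) ∧ BU f f = b ∧ ‖uq (fun _ => u) + f‖ = I ∧
      ∀ ε : ℝ, 0 < ε → ∃ δ : ℝ, 0 < δ ∧ ∀ e : XU V, JU (uq fun _ => x) e = ‖f‖ →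
        ‖e‖ ≤ ‖f‖ + δ → ‖uq (fun _ => u) + f‖ ≤ ‖uq (fun _ => u) + e‖ + ε := by
  sorry

/-- no maximising pair with `κ > 0` can be a top pair -/
theorem no_top_pair (h : Alg J C B m lam) {x u : V} (hM : MaxP J B m lam κ x u)
    (hT : TopQ J B m lam κ τ) (hτ : τ ≤ J x u) : False := by
  sorry

/-- all the forms `qf` vanish -/
theorem qf_zero (h : Alg J C B m lam) {x : V} (hx : x ≠ 0) (u v : V) : qf J B m lam x u v = 0 := by
  sorry

/-- **ALG**: `m = B ⊗ w`. -/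
theorem alg_main (h : Alg J C B m lam) : ∃ w : V, ∀ u v, m u v = B u v • w := by
  sorry

end P084GII
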