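import Vale.Agent.Lib.P084G.III.Defs

/-! Elementary algebra of the forms `qf` (notes/P084/ALG.md, Notation and (0)). -/

open Filter Topology

namespace P084GII

variable {V : Type*} [NormedAddCommGroup V] [NormedSpace ℝ V]
variable {J : V → V →L[ℝ] ℝ} {C : ℝ} {B : V → V → ℝ} {m : V → V → V} {lam : V → ℝ} {κ : ℝ}

theorem Psd.add_right (h : Psd B C) (u v w : V) : B u (v + w) = B u v + B u w := by
  sorry

theorem Psd.smul_right (h : Psd B C) (c : ℝ) (u w : V) : B u (c • w) = c * B u w := by
  sorry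

/-- Cauchy-Schwarz -/
theorem Psd.cs (h : Psd B C) (u v : V) : B u v ^ 2 ≤ B u u * B v v := by
  sorry

theorem Psd.ker (h : Psd B C) {k : V} (hk : B k k = 0) (v : V) : B k v = 0 := by
  sorry

theorem Alg.madd_right (h : Alg J C B m lam) (u v w : V) : m u (v + w) = m u v + m u w := by
  sorry

theorem Alg.msmul_right (h : Alg J C B m lam) (c : ℝ) (u w : V) : m u (c • w) = c • m u w := by
  sorry

theorem Alg.qf_symm (h : Alg J C B m lam) (x u v : V) :
    qf J B m lam x u v = qf J B m lam x v u := by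
  sorry

theorem Alg.qf_add (h : Alg J C B m lam) (x u v w : V) :
    qf J B m lam x (u + v) w = qf J B m lam x u w + qf J B m lam x v w := by
  sorry

theorem Alg.qf_smul (h : Alg J C B m lam) (x : V) (c : ℝ) (u w : V) :
    qf J B m lam x (c • u) w = c * qf J B m lam x u w := by
  sorry

/-- `x` is in the kernel of `qf x` -/
theorem Alg.qf_self (h : Alg J C B m lam) {x : V} (hx : x ≠ 0) (v : V) :
    qf J B m lam x x v = 0 := by
  sorry

theorem Alg.qf_neg (h : Alg J C B m lam) {x : V} (hx : x ≠ 0) (u v : V) :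
    qf J B m lam (-x) u v = -qf J B m lam x u v := by
  sorry

theorem Alg.abs_qf_le (h : Alg J C B m lam) (hs : SupQ J B m lam κ) {x : V} (hx : x ≠ 0)
    (u : V) : |qf J B m lam x u u| ≤ κ * ‖u‖ ^ 2 := by
  sorry

/-- `lam` depends on `J` only -/
theorem Alg.lam_eq (h : Alg J C B m lam) {x y : V} (hx : x ≠ 0) (hy : y ≠ 0) (hJ : J x = J y) :
    lam x = lam y := by
  sorry

/-- `lam` is continuous off `0` -/
theorem Alg.lam_cont (h : Alg J C B m lam) {x : V} (hx : x ≠ 0) : ContinuousAt lam x := by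
  sorry

/-- (0): differentiate `qf x v v ≤ κ ‖v‖²` at `v = u` -/
theorem MaxP.deriv (h : Alg J C B m lam) {x u : V} (hM : MaxP J B m lam κ x u) (v : V) :
    qf J B m lam x u v = κ * J u v := by
  sorry

theorem MaxP.perp (h : Alg J C B m lam) {x u : V} (hM : MaxP J B m lam κ x u) : J u x = 0 := by
  sorry

end P084GII
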