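import Vale.Agent.Lib.P084G.III.QfA

/-! notes/P084/ALG.md, step (1). -/

open Filter Topology

namespace P084GII

variable {V : Type*} [NormedAddCommGroup V] [NormedSpace ℝ V]
variable {J : V → V →L[ℝ] ℝ} {C : ℝ} {B : V → V → ℝ} {m : V → V → V} {lam : V → ℝ} {κ : ℝ}

/-- one step: if `M_u = m u ·` is skew (`B u u = 0`) then `‖s + h M_u s‖ ≤ (1 + C³ h²) ‖s‖` (Dual2.taylor) -/
theorem skew_step (h : Alg J C B m lam) {u : V} (hu : ‖u‖ = 1) (hB : B u u = 0) (s : V) (t : ℝ) :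
    ‖s + t • m u s‖ ≤ (1 + C ^ 3 * t ^ 2) * ‖s‖ := by
  sorry

/-- iterate: `J x ((1 + t M_u)^n s) = J x s + n t κ J u s` when `J x (m u s) = κ J u s` and `J u (m u s) = 0` -/
theorem iter_step {u x : V} (h1 : ∀ s, J x (m u s) = κ * J u s) (h2 : ∀ s, J u (m u s) = 0)
    (t : ℝ) (n : ℕ) (s : V) :
    J x ((fun s : V => s + t • m u s)^[n] s) = J x s + n * t * κ * J u s := by
  sorry

/-- (1) -/
theorem MaxP.Bu_pos (h : Alg J C B m lam) {x u : V} (hM : MaxP J B m lam κ x u) : 0 < B u u := by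
  sorry

end P084GII
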